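import Crest.Agent.N111.VN.Emb
import Crest.Agent.N111.Stmts

/-!
# Row 111, module A: the three-leg model on `ℓ²(Λ³)`.
-/

set_option autoImplicit false

noncomputable section

namespace Crest.Agent.N111.A

open scoped InnerProductSpace ComplexConjugate ENNReal ComplexOrder
open ContinuousLinearMap Crest.OperatorAlgebra Filter Topology

/-! ### cut-off projections -/

section cut

variable {Y : Type*}

open Classical in
/-- multiplication by an indicator -/
def cut (P : Y → Prop) : Ell2 Y →L[ℂ] Ell2 Y := mulOp fun y => if P y then 1 else 0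

open Classical in
theorem bdd_ite (P : Y → Prop) : Bdd fun y => if P y then (1 : ℂ) else 0 :=
  ⟨1, fun y => by by_cases h : P y <;> simp [h]⟩

theorem cut_apply_pos {P : Y → Prop} (ξ : Ell2 Y) {y : Y} (h : P y) : cut P ξ y = ξ y := by
  rw [cut, (bdd_ite P).mulOp_apply, if_pos h, one_mul]

theorem cut_apply_neg {P : Y → Prop} (ξ : Ell2 Y) {y : Y} (h : ¬ P y) : cut P ξ y = 0 := by
  rw [cut, (bdd_ite P).mulOp_apply, if_neg h, zero_mul]

theorem cut_dt_pos {P : Y → Prop} {y : Y} (h : P y) : cut P (dt y) = dt y := by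
  rw [cut, (bdd_ite P).mulOp_dt, if_pos h, one_smul]

theorem cut_dt_neg {P : Y → Prop} {y : Y} (h : ¬ P y) : cut P (dt y) = 0 := by
  rw [cut, (bdd_ite P).mulOp_dt, if_neg h, zero_smul]

theorem star_cut (P : Y → Prop) : star (cut P) = cut P := by
  rw [cut, star_mulOp (bdd_ite P)]
  congr 1; ext y; split_ifs <;> simp

theorem inner_cut_left (P : Y → Prop) (ξ η : Ell2 Y) : ⟪cut P ξ, η⟫_ℂ = ⟪ξ, cut P η⟫_ℂ := by
  rw [← adjoint_inner_right, ← star_eq_adjoint, star_cut]

theorem cut_mul_self (P : Y → Prop) : cut P * cut P = cut P := ext_dt fun y => by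
  by_cases h : P y <;> simp [cut_dt_pos, cut_dt_neg, h]

theorem commute_cut {P : Y → Prop} {T : Ell2 Y →L[ℂ] Ell2 Y} {e : Y → Y}
    (hT : ∀ y, T (dt y) = dt (e y)) (h : ∀ y, P (e y) ↔ P y) : Commute (cut P) T :=
  ext_dt fun y => by
    by_cases hy : P y
    · simp [hT, cut_dt_pos hy, cut_dt_pos ((h y).2 hy)]
    · simp [hT, cut_dt_neg hy, cut_dt_neg (mt (h y).1 hy)]

theorem commute_cut_cut (P Q : Y → Prop) : Commute (cut P) (cut Q) := ext_dt fun y => by
  by_cases h : P y <;> by_cases h' : Q y <;> simp [cut_dt_pos, cut_dt_neg, h, h']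

end cut

theorem cyc_of_comm_le {K L : Type*} [Group K] [Group L] (σ : URep L (Ell2 K))
    (h : ∀ T ∈ σ.comm, T ∈ RA K) (w : Ell2 K) (hw : ∀ g, ⟪σ g (dt 1), w⟫_ℂ = 0) : w = 0 := by
  let U : Submodule ℂ (Ell2 K) := (Submodule.span ℂ (Set.range fun g => σ g (dt 1)))ᗮ
  have hU : ∀ x, x ∈ U ↔ ∀ g, ⟪σ g (dt 1), x⟫_ℂ = 0 := fun x =>
    ⟨fun hx g => hx _ (Submodule.subset_span ⟨g, rfl⟩), fun hx u hu => by
      induction hu using Submodule.span_induction with
      | mem _ h => obtain ⟨g, rfl⟩ := h; exact hx g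
      | zero => simp
      | add _ _ _ _ h1 h2 => rw [inner_add_left, h1, h2, add_zero]
      | smul c _ _ h => rw [inner_smul_left, h, mul_zero]⟩
  have hinv : ∀ g, ∀ x ∈ U, σ g x ∈ U := fun g x hx => (hU _).2 fun k => by
    rw [σ.inner_right, ← σ.mul_apply]; exact (hU x).1 hx _
  have hE : U.starProjection ∈ σ.comm := fun g =>
    starProjection_comm U (hinv g) (by rw [σ.star_apply]; exact hinv _)
  have h0 : U.starProjection = 0 := RA_ext (h _ hE) (zero_mem _)
    ((U.starProjection_apply_eq_zero_iff).2 (Submodule.le_orthogonal_orthogonal _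
      (Submodule.subset_span ⟨1, by simp⟩)))
  rw [← Submodule.starProjection_eq_self_iff.2 ((hU w).2 hw), h0, zero_apply]

theorem l2_eq_zero_of_infinite {Y : Type*} (f : Ell2 Y) {y : Y} {S : Set Y} (hS : S.Infinite)
    (h : ∀ z ∈ S, f z = f y) : f y = 0 := by
  by_contra h0
  have ht := (hasSum_normSq f).summable.tendsto_cofinite_zero.eventually
    (gt_mem_nhds (pow_pos (norm_pos_iff.2 h0) 2))
  rw [eventually_cofinite] at ht
  exact hS (ht.subset fun z hz => by simp [h z hz])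

/-- the trace as a linear functional -/
def tauL (K : Type*) [Group K] : (Ell2 K →L[ℂ] Ell2 K) →ₗ[ℂ] ℂ where
  toFun := tau
  map_add' := tau_add
  map_smul' := tau_smul

/-! ### legs -/

variable {Λ : Type} [Group Λ]

/-- the three-fold product -/
abbrev K3 (Λ : Type) : Type := Fin 3 → Λ

/-- the `i`-th leg -/
def leg (i : Fin 3) : Λ →* K3 Λ := MonoidHom.mulSingle (fun _ => Λ) i

theorem leg_apply (i : Fin 3) (s : Λ) : leg i s = Pi.mulSingle i s := rfl

theorem leg_inj (i : Fin 3) : Function.Injective (leg i : Λ → K3 Λ) :=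
  Pi.mulSingle_injective (M := fun _ => Λ) i

@[simp] theorem leg_same (i : Fin 3) (s : Λ) : leg i s i = s := by simp [leg_apply]

theorem leg_ne {i j : Fin 3} (h : j ≠ i) (s : Λ) : leg i s j = 1 := by simp [leg_apply, h]

/-- the diagonal -/
def dia : Λ →* K3 Λ := Pi.constMonoidHom (Fin 3) Λ

@[simp] theorem dia_apply (s : Λ) (i : Fin 3) : dia s i = s := rfl

theorem dia_inj : Function.Injective (dia : Λ → K3 Λ) := fun _ _ h => congrFun h 0

theorem eq_legs (y : K3 Λ) : y = leg 0 (y 0) * leg 1 (y 1) * leg 2 (y 2) := by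
  ext i; fin_cases i <;> simp [leg_apply]

theorem commute_lam_of_legs {T : Ell2 (K3 Λ) →L[ℂ] Ell2 (K3 Λ)} {y : K3 Λ}
    (h : ∀ j, y j = 1 ∨ ∀ s, Commute T (lam _ (leg j s))) : Commute T (lam _ y) := by
  have key : ∀ j, Commute T (lam _ (leg j (y j))) := fun j =>
    (h j).elim (fun e => by rw [e, map_one, map_one]; exact Commute.one_right T) fun e => e _
  rw [eq_legs y, map_mul, map_mul]
  exact ((key 0).mul_right (key 1)).mul_right (key 2)

theorem commute_lam_leg {y : K3 Λ} {i : Fin 3} (h : y i = 1) (s : Λ) :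
    Commute (lam _ y) (lam _ (leg i s)) := by
  refine Commute.map ?_ (lam (K3 Λ))
  ext j
  by_cases hj : j = i
  · subst hj; simp [h]
  · simp [leg_ne hj]

/-- the projection onto `{y i = 1}` -/
def E (i : Fin 3) : Ell2 (K3 Λ) →L[ℂ] Ell2 (K3 Λ) := cut fun y => y i = 1

theorem E_dt_pos {i : Fin 3} {y : K3 Λ} (h : y i = 1) : E i (dt y) = dt y := cut_dt_pos h

theorem E_dt_neg {i : Fin 3} {y : K3 Λ} (h : y i ≠ 1) : E i (dt y) = 0 := cut_dt_neg h

theorem E_apply_pos {i : Fin 3} (ξ : Ell2 (K3 Λ)) {y : K3 Λ} (h : y i = 1) : E i ξ y = ξ y :=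
  cut_apply_pos ξ h

theorem E_apply_neg {i : Fin 3} (ξ : Ell2 (K3 Λ)) {y : K3 Λ} (h : y i ≠ 1) : E i ξ y = 0 :=
  cut_apply_neg ξ h

theorem E_dt_one (i : Fin 3) : E i (dt (1 : K3 Λ)) = dt 1 := E_dt_pos rfl

theorem commute_E_lam {y : K3 Λ} {i : Fin 3} (h : y i = 1) : Commute (E i) (lam _ y) :=
  commute_cut (lam_dt y) fun z => by simp [h]

theorem E_emb_E (i : Fin 3) {x : Ell2 Λ →L[ℂ] Ell2 Λ} (hx : x ∈ LA Λ) :
    E i * emb (leg i) (leg_inj i) x * E i = tau x • E i := by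
  refine ext_dt fun y => ?_
  by_cases hy : y i = 1
  · refine l2_ext fun z => ?_
    simp only [mul_apply_eq_comp, smul_apply, E_dt_pos hy]
    by_cases hz : z i = 1
    · rw [E_apply_pos _ hz, LA_dt (emb_mem _ _ _), emb_hat _ _ hx, rho_apply, l2_smul_apply]
      by_cases e : z = y
      · rw [e, mul_inv_cancel, ← map_one (leg i), push_apply, dt_self, mul_one, tau]
      · rw [dt_ne e, mul_zero]
        refine push_apply_of_not _ _ _ fun s hs => e ?_
        have : s = 1 := by simpa [hy, hz] using congrFun hs i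
        rw [this, map_one] at hs
        exact mul_inv_eq_one.1 hs.symm
    · rw [E_apply_neg _ hz, l2_smul_apply, dt_ne (fun e : z = y => hz (e ▸ hy)), mul_zero]
  · simp [E_dt_neg hy]

theorem E_push_dia (i : Fin 3) (ζ : Ell2 Λ) : E i (push dia dia_inj ζ) = ζ 1 • dt 1 := by
  have : E i ∘L push dia dia_inj = (innerSL ℂ (dt (1 : Λ))).smulRight (dt (1 : K3 Λ)) :=
    ext_dt fun s => by
      by_cases hs : s = 1
      · simp [hs, E_dt_one]
      · simp [E_dt_neg (y := dia s) hs, dt_ne (Ne.symm hs)]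
  simpa using congrArg (fun T : Ell2 Λ →L[ℂ] Ell2 (K3 Λ) => T ζ) this

/-- the flip of the legs `1` and `2` on the group -/
def sw (y : K3 Λ) : K3 Λ := y ∘ Equiv.swap 1 2

omit [Group Λ] in
@[simp] theorem sw_sw (y : K3 Λ) : sw (sw y) = y := by ext i; simp [sw]

omit [Group Λ] in
theorem sw_inj : Function.Injective (sw : K3 Λ → K3 Λ) := Function.LeftInverse.injective sw_sw

theorem sw_mul (y z : K3 Λ) : sw (y * z) = sw y * sw z := rfl
theorem sw_inv (y : K3 Λ) : sw y⁻¹ = (sw y)⁻¹ := rfl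
@[simp] theorem sw_one : sw (1 : K3 Λ) = 1 := rfl
@[simp] theorem sw_dia (s : Λ) : sw (dia s) = dia s := rfl

theorem sw_leg (i : Fin 3) (s : Λ) : sw (leg i s) = leg (Equiv.swap 1 2 i) s := by
  ext j; fin_cases i <;> fin_cases j <;> simp [sw, leg_apply, Equiv.swap_apply_def]

/-- the flip operator -/
def fl (Λ : Type) : Ell2 (K3 Λ) →L[ℂ] Ell2 (K3 Λ) :=
  pull (fun y => y ∘ Equiv.swap 1 2) (Function.LeftInverse.injective (g := (· ∘ Equiv.swap 1 2))
    fun y => by ext i; simp)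

omit [Group Λ] in
@[simp] theorem fl_dt (y : K3 Λ) : fl Λ (dt y) = dt (sw y) := by
  have := pull_dt sw sw_inj (sw y)
  rwa [sw_sw] at this

omit [Group Λ] in
theorem fl_mul_fl : fl Λ * fl Λ = 1 := ext_dt fun y => by simp

omit [Group Λ] in
theorem star_fl : star (fl Λ) = fl Λ := ext_dt fun y => (push_dt sw sw_inj y).trans (fl_dt y).symm

theorem fl_rho (k : K3 Λ) : fl Λ * rho _ k = rho _ (sw k) * fl Λ :=
  ext_dt fun y => by simp [sw_mul, sw_inv]

theorem fl_emb_fl (i : Fin 3) {x : Ell2 Λ →L[ℂ] Ell2 Λ} (hx : x ∈ LA Λ) :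
    fl Λ * emb (leg i) (leg_inj i) x * fl Λ = emb (leg (Equiv.swap 1 2 i)) (leg_inj _) x := by
  refine LA_ext (fun k => ?_) (emb_mem _ _ _) ?_
  · conv_lhs => rw [← sw_sw k, ← mul_assoc, ← mul_assoc, ← fl_rho, mul_assoc (fl Λ),
      emb_mem _ _ x, ← mul_assoc, mul_assoc _ _ (fl Λ), ← fl_rho, ← mul_assoc]
  · have : fl Λ ∘L push (leg i) (leg_inj i) = push (leg (Equiv.swap 1 2 i)) (leg_inj _) :=
      ext_dt fun s => by simp [sw_leg]
    simp only [mul_apply_eq_comp, fl_dt, sw_one, emb_hat _ _ hx]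
    exact congrArg (fun T : Ell2 Λ →L[ℂ] Ell2 (K3 Λ) => T _) this

/-! ### the representations -/

variable {v : URep Γ (Ell2 Λ)} (hv : IsGen v)

/-- the `i`-th leg representation -/
def Al (i : Fin 3) : URep Γ (Ell2 (K3 Λ)) := hv.embRep (leg i) (leg_inj i)

/-- the diagonal representation -/
def D : URep Γ (Ell2 (K3 Λ)) := hv.embRep dia dia_inj

theorem Al_mem (i : Fin 3) (μ : Γ) : Al hv i μ ∈ LA (K3 Λ) := emb_mem _ _ _

theorem D_mem (μ : Γ) : D hv μ ∈ LA (K3 Λ) := emb_mem _ _ _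

theorem commute_Al {T : Ell2 (K3 Λ) →L[ℂ] Ell2 (K3 Λ)} {i : Fin 3}
    (h : ∀ s, Commute T (lam _ (leg i s))) (μ : Γ) : Commute T (Al hv i μ) :=
  commute_emb _ _ h (hv.mem μ)

theorem commute_leg_of_Al {T : Ell2 (K3 Λ) →L[ℂ] Ell2 (K3 Λ)} {i : Fin 3}
    (h : ∀ μ, Commute T (Al hv i μ)) (s : Λ) : Commute T (lam _ (leg i s)) := by
  simpa using hv.commute_emb _ (leg_inj i) h (lam_mem_LA s)

theorem Al_comm {i j : Fin 3} (h : i ≠ j) (γ μ : Γ) : Commute (Al hv i γ) (Al hv j μ) :=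
  commute_Al hv (fun s => (commute_Al hv (commute_lam_leg (leg_ne h s)) γ).symm) μ

/-- the target representation -/
def R : URep (Fin 3 → Γ) (Ell2 (K3 Λ)) :=
  URep.ofStar (fun g => Al hv 0 (g 0) * Al hv 1 (g 1) * Al hv 2 (g 2)) (by simp)
    (fun g h => by
      simp only [Pi.mul_apply, map_mul, mul_assoc]
      rw [(Al_comm hv (by decide : (0 : Fin 3) ≠ 1) _ _).left_comm,
        (Al_comm hv (by decide : (1 : Fin 3) ≠ 2) (h 1) _).left_comm,
        (Al_comm hv (by decide : (0 : Fin 3) ≠ 2) _ _).left_comm])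
    fun g => by
      simp only [star_mul, URep.star_apply, Pi.inv_apply, mul_assoc]
      rw [(Al_comm hv (by decide : (1 : Fin 3) ≠ 0) _ _).eq,
        (Al_comm hv (by decide : (2 : Fin 3) ≠ 0) _ _).left_comm,
        (Al_comm hv (by decide : (2 : Fin 3) ≠ 1) _ _).eq]

theorem R_apply (g : Fin 3 → Γ) : R hv g = Al hv 0 (g 0) * Al hv 1 (g 1) * Al hv 2 (g 2) := rfl

theorem R_single (i : Fin 3) (μ : Γ) : R hv (Pi.mulSingle i μ) = Al hv i μ := by
  fin_cases i <;> simp [R_apply]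

theorem R_mem (g : Fin 3 → Γ) : R hv g ∈ LA (K3 Λ) :=
  mul_mem (mul_mem (Al_mem hv _ _) (Al_mem hv _ _)) (Al_mem hv _ _)

theorem commute_R {T : Ell2 (K3 Λ) →L[ℂ] Ell2 (K3 Λ)} {g : Fin 3 → Γ}
    (h : ∀ j, g j = 1 ∨ ∀ s, Commute T (lam _ (leg j s))) : Commute T (R hv g) := by
  have key : ∀ j, Commute T (Al hv j (g j)) := fun j =>
    (h j).elim (fun e => by rw [e, map_one]; exact Commute.one_right T)
      fun e => commute_Al hv e _
  exact ((key 0).mul_right (key 1)).mul_right (key 2)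

theorem R_comm_le : ∀ T ∈ (R hv).comm, T ∈ RA (K3 Λ) := fun T hT _ =>
  (commute_lam_of_legs fun j => Or.inr (commute_leg_of_Al hv fun μ => by
    rw [← R_single]; exact (hT _).symm)).symm

theorem commute_E_R {g : Fin 3 → Γ} {i : Fin 3} (h : g i = 1) : Commute (E i) (R hv g) :=
  commute_R hv fun j => by
    by_cases e : j = i
    · exact Or.inl (e ▸ h)
    · exact Or.inr fun s => commute_E_lam (leg_ne (Ne.symm e) s)

theorem E_R_pos {g : Fin 3 → Γ} {i : Fin 3} (h : g i = 1) : E i (R hv g (dt 1)) = R hv g (dt 1) := by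
  rw [← mul_apply_eq_comp, (commute_E_R hv h).eq, mul_apply_eq_comp, E_dt_one]

variable (hr : IsReg v (dt 1))

omit hv in
include hr in
theorem tau_v {γ : Γ} (h : γ ≠ 1) : tau (v γ) = 0 := by
  simpa [tau] using hr.on.2 h.symm

include hr in
theorem E_R_neg {g : Fin 3 → Γ} {i : Fin 3} (h : g i ≠ 1) : E i (R hv g (dt 1)) = 0 := by
  have e : g = Pi.mulSingle i (g i) * Function.update g i 1 := by
    ext1 j
    by_cases hj : j = i
    · subst hj; simp
    · simp [hj]
  have h1 := congrArg (fun T : Ell2 (K3 Λ) →L[ℂ] Ell2 (K3 Λ) =>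
    T (R hv (Function.update g i 1) (dt 1))) (E_emb_E i (hv.mem (g i)))
  simp only [mul_apply_eq_comp, E_R_pos hv (Function.update_self i 1 g), tau_v hr h, zero_smul,
    zero_apply] at h1
  rw [e, URep.mul_apply, R_single]
  exact h1

include hr in
theorem tau_R {g : Fin 3 → Γ} (h : g ≠ 1) : tau (R hv g) = 0 := by
  obtain ⟨i, hi⟩ := Function.ne_iff.1 h
  rw [tau_eq_inner, ← E_dt_one i, E, inner_cut_left, ← E, E_dt_one, E_R_neg hv hr hi,
    inner_zero_right]

include hr in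
theorem isReg_R : IsReg (R hv) (dt 1) :=
  ⟨⟨fun g => by simp, fun g h hne => by
    have := tau_R hv hr (g := g⁻¹ * h) (fun e => hne (inv_mul_eq_one.1 e))
    rwa [tau_eq_inner, URep.mul_apply, ← URep.inner_left] at this⟩,
    cyc_of_comm_le _ (R_comm_le hv)⟩

theorem jj_D_hat (γ : Γ) : jj (D hv γ⁻¹) (dt 1) = push dia dia_inj (v γ (dt 1)) := by
  rw [← URep.star_apply, ← Rm, Rm_hat_LA (D_mem hv γ)]
  exact emb_hat _ _ (hv.mem γ)

theorem commute_rho_of_π {T : Ell2 (K3 Λ) →L[ℂ] Ell2 (K3 Λ)}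
    (h : ∀ γ, Commute T ((D hv).jj γ)) (s : Λ) : Commute T (rho _ (dia s)) := by
  simpa using hv.commute_jj_emb _ dia_inj h (lam_mem_LA s)

theorem commute_π {T : Ell2 (K3 Λ) →L[ℂ] Ell2 (K3 Λ)} (h : ∀ s, Commute T (rho _ (dia s)))
    (γ : Γ) : Commute T ((D hv).jj γ) := commute_jj_emb _ _ h (hv.mem γ)

theorem erg_D (hΛ : IsICC Λ) (η : Ell2 (K3 Λ)) (h : ∀ γ, D hv γ ((D hv).jj γ η) = η) :
    ∃ c : ℂ, η = c • dt 1 := by
  have h1 : ∀ γ, D hv γ η = Rm (D hv γ) η := fun γ => by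
    have := congrArg ((D hv).jj γ⁻¹) (h γ)
    rw [URep.jj_apply, ← mul_apply_eq_comp,
      ← LA_comm_RA (D_mem hv γ) (jj_mem_RA (D_mem hv _)), mul_apply_eq_comp, ← URep.jj_apply,
      URep.inv_apply_apply] at this
    rw [this, Rm, URep.star_apply]; rfl
  have h2 : ∀ s z, η ((dia s)⁻¹ * z) = η (z * (dia s)⁻¹) := fun s z => by
    simpa using congrArg (fun ξ : Ell2 (K3 Λ) => ξ z) (hv.central dia dia_inj h1 (lam_mem_LA s))
  refine ⟨η 1, l2_ext fun y => ?_⟩
  by_cases hy : y = 1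
  · simp [hy]
  · rw [l2_smul_apply, dt_ne hy, mul_zero]
    obtain ⟨i, hi⟩ := Function.ne_iff.1 hy
    refine l2_eq_zero_of_infinite η (S := {z | ∃ s, z = dia s * y * (dia s)⁻¹})
      (Set.Infinite.of_image (fun z => z i) ((hΛ _ hi).mono ?_)) ?_
    · rintro _ ⟨s, rfl⟩
      exact ⟨_, ⟨s, rfl⟩, rfl⟩
    · rintro _ ⟨s, rfl⟩
      rw [← h2, inv_mul_cancel_left]

/-- erasing a coordinate -/
def era (i : Fin 3) : K3 Λ →* K3 Λ where
  toFun k := Function.update k i 1
  map_one' := Function.update_eq_self i _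
  map_mul' a b := by rw [← Function.update_mul, mul_one]

/-- the simply transitive action commuting with leg `i` -/
def σ (i : Fin 3) : URep (K3 Λ) (Ell2 (K3 Λ)) :=
  ((lam _).comp (era i)).mulRep ((rho _).comp (dia.comp (Pi.evalMonoidHom _ i)))
    fun _ _ => LA_comm_RA (lam_mem_LA _) (rho_mem_RA _)

theorem σ_apply (i : Fin 3) (k : K3 Λ) :
    σ i k = lam _ (Function.update k i 1) * rho _ (dia (k i)) := rfl

theorem isReg_σ (i : Fin 3) : IsReg (σ (Λ := Λ) i) (dt 1) := by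
  let β : K3 Λ → K3 Λ := fun k => Function.update k i 1 * (dia (k i))⁻¹
  have e : ∀ k, σ i k (dt 1) = dt (β k) := fun k => by simp [σ_apply, β]
  have hinj : Function.Injective β := fun a b h => by
    have h1 : a i = b i := by simpa [β] using congrFun h i
    ext j
    by_cases hj : j = i
    · rw [hj, h1]
    · simpa [β, hj, h1] using congrFun h j
  have hsurj : Function.Surjective β := fun y =>
    ⟨Function.update (y * dia (y i)⁻¹) i (y i)⁻¹, by
      ext j
      by_cases hj : j = i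
      · subst hj; simp [β]
      · simp [β, hj]⟩
  refine ⟨by simpa only [e, Function.comp_def] using orthonormal_dt.comp β hinj,
    fun w hw => eq_zero_of_inner_dt fun y => ?_⟩
  obtain ⟨k, rfl⟩ := hsurj y
  rw [← e, hw]

/-- the three-leg setting -/
def setting (hΛ : IsICC Λ) : Setting (Fin 3) (Ell2 (K3 Λ)) where
  π := (D hv).jj
  R := R hv
  ξ := dt 1
  comm γ g := (LA_comm_RA (R_mem hv g) (jj_mem_RA (D_mem hv γ))).symm
  ξ_ne := norm_ne_zero_iff.1 (by simp)
  pars := (isReg_R hv hr).hasSum_normSq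
  orth i γ g hg hne := by
    rw [URep.inner_right, URep.jj_apply, jj_D_hat, ← E_R_pos hv hg, E, ← inner_cut_left, ← E,
      E_push_dia, inner_smul_left, ← tau_eq_inner, ← tau]
    by_cases hγ : γ = 1
    · rw [tau_R hv hr fun e => hne ⟨hγ, e⟩, mul_zero]
    · rw [tau_v hr hγ, map_zero, zero_mul]
  erg := ⟨D hv,
    { comm := by
        rintro _ ⟨g, rfl⟩ γ
        exact (LA_comm_RA (R_mem hv g) (jj_mem_RA (D_mem hv γ))).symm
      L_mem := fun γ T hT =>
        (LA_comm_RA (D_mem hv γ) (R_comm_le hv T fun g => hT _ ⟨g, rfl⟩)).symm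
      L_Ω := fun γ => by
        rw [URep.jj_apply, ← Rm_star_eq, Rm_hat_LA (star_mem (D_mem hv γ)), URep.star_apply,
          URep.apply_inv_apply]
      cyc := by
        rw [Submodule.dense_iff_topologicalClosure_eq_top,
          Submodule.topologicalClosure_eq_top_iff, eq_bot_iff]
        exact fun w hw => (isReg_R hv hr).tot w fun g =>
          hw _ (Submodule.subset_span ⟨_, ⟨g, rfl⟩, rfl⟩)
      erg := erg_D hv hΛ }⟩
  tr i := ⟨tauL _, tau_one, fun T hT => (Complex.le_def.1 (tau_nonneg hT)).1, fun T h1 h2 μ => by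
    have hT : T ∈ (σ i).comm := fun k => by
      refine (Commute.mul_right (commute_lam_of_legs fun j => ?_) (commute_rho_of_π hv h1 _)).symm
      by_cases e : j = i
      · exact Or.inl (e ▸ Function.update_self _ _ _)
      · refine Or.inr (commute_leg_of_Al hv fun μ => ?_)
        rw [← R_single]
        exact h2 _ (by simp [Ne.symm e])
    have hS : ∀ μ, Al hv i μ ∈ (σ i).comm := fun μ k =>
      Commute.mul_left (commute_Al hv (commute_lam_leg (Function.update_self _ _ _)) μ)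
        (LA_comm_RA (Al_mem hv i μ) (rho_mem_RA _)).symm
    have := (isReg_σ i).trace (hS μ) (mul_mem hT (hS μ⁻¹))
    rw [← Pi.mulSingle_inv, R_single, R_single]
    simpa [tauL, tau] using this⟩

theorem setting_flip (hΛ : IsICC Λ) : (setting hv hr hΛ).Flip (fl Λ) where
  s_sa := star_fl
  s_s := fl_mul_fl
  s_π := commute_π hv fun s => fl_rho (dia s)
  s_ξ := fl_dt 1
  s_R g := by
    have e : ∀ i μ, fl Λ * Al hv i μ * fl Λ = Al hv (Equiv.swap 1 2 i) μ := fun i μ =>
      fl_emb_fl i (hv.mem μ)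
    have e2 : ∀ a b c : Ell2 (K3 Λ) →L[ℂ] Ell2 (K3 Λ), fl Λ * (a * b * c) * fl Λ
        = fl Λ * a * fl Λ * (fl Λ * b * fl Λ) * (fl Λ * c * fl Λ) := fun a b c => by
      simp only [mul_assoc, ← mul_assoc (fl Λ) (fl Λ), fl_mul_fl, one_mul]
    change fl Λ * R hv g * fl Λ = R hv _
    rw [R_apply, e2, e, e, e, R_apply, mul_assoc, mul_assoc]
    simpa [Equiv.swap_apply_def] using
      congrArg (Al hv 0 (g 0) * ·) (Al_comm hv (by decide : (2 : Fin 3) ≠ 1) (g 1) (g 2)).eq
  on := (isReg_R hv hr).on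

end Crest.Agent.N111.A
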