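import Crest.Agent.N111.A.Cmp
import Crest.Agent.N111.Stmts

/-!
# Row 111, module A: the reduction of part (i).
-/

set_option autoImplicit false
set_option maxHeartbeats 400000

noncomputable section

namespace Crest.Agent.N111.A

open scoped InnerProductSpace ComplexConjugate ENNReal ComplexOrder
open ContinuousLinearMap Crest.OperatorAlgebra Filter Topology

variable (θ : Iso Γ Γ)

theorem commute_P {x : Ell2 Γ →L[ℂ] Ell2 Γ} (hx : x ∈ LA Γ) : Commute (jj θ.p) x :=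
  (LA_comm_RA hx (jj_mem_RA θ.p_mem)).symm

theorem commute_P_u (γ : Γ) : Commute (jj θ.p) (jj (θ.u γ)) :=
  commute_jj ((θ.p_mul_u γ).trans (θ.u_mul_p γ).symm)

/-- the source representation on the corner -/
def cπ : URep Γ (Hp (jj θ.p)) :=
  cmpRep (jj_p_mul θ) (star_jj_p θ) (fun γ => jj (θ.u γ)) (commute_P_u θ)
    (by rw [θ.u_one, cmp_P]) (fun g h => by rw [θ.u_mul, jj_mul])
    fun g => by rw [← jj_star, θ.star_u]

/-- the target representation on the corner -/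
def cR : URep (Unit → Γ) (Hp (jj θ.p)) :=
  cmpRep (jj_p_mul θ) (star_jj_p θ) (fun g => lam Γ (g ())) (fun _ => commute_P θ (lam_mem_LA _))
    (by rw [Pi.one_apply, map_one, cmp_one]) (fun g h => by rw [Pi.mul_apply, map_mul])
    fun g => by rw [URep.star_apply, Pi.inv_apply]

theorem uq_mem (γ : Γ) : θ.u γ + (1 - θ.p) ∈ LA Γ := add_mem (θ.u_mem γ) (sub_mem (one_mem _) θ.p_mem)

/-- the left action making `ξ` invariant -/
def cL : URep Γ (Hp (jj θ.p)) :=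
  cmpRep (jj_p_mul θ) (star_jj_p θ) (fun γ => θ.u γ + (1 - θ.p))
    (fun γ => commute_P θ (uq_mem θ γ))
    (by rw [θ.u_one, add_sub_cancel, cmp_one])
    (fun g h => by
      simp only [θ.u_mul, add_mul, mul_add, mul_sub, sub_mul, mul_one, one_mul, θ.p_mul_u,
        θ.u_mul_p, θ.p_mul_p]
      abel)
    fun g => by rw [star_add, star_sub, star_one, θ.star_p, θ.star_u]

/-- the cyclic vector -/
def cξ : Hp (jj θ.p) := prj (jj_p_mul θ) (dt 1)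

theorem coe_cξ : (cξ θ : Ell2 Γ) = θ.p (dt 1) := by
  rw [cξ, coe_prj, jj_hat θ.p_mem, θ.star_p]

theorem coe_cπ (γ : Γ) (η : Hp (jj θ.p)) : (cπ θ γ η : Ell2 Γ) = jj (θ.u γ) η :=
  coe_cmp_of (jj_p_mul θ) (commute_P_u θ γ) η

theorem coe_cR (g : Unit → Γ) (η : Hp (jj θ.p)) : (cR θ g η : Ell2 Γ) = lam Γ (g ()) η :=
  coe_cmp_of (jj_p_mul θ) (commute_P θ (lam_mem_LA _)) η

theorem coe_cL (γ : Γ) (η : Hp (jj θ.p)) : (cL θ γ η : Ell2 Γ) = (θ.u γ + (1 - θ.p)) η :=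
  coe_cmp_of (jj_p_mul θ) (commute_P θ (uq_mem θ γ)) η

theorem norm_cξ : ‖cξ θ‖ ^ 2 = θ.t := by rw [← Submodule.norm_coe, coe_cξ, Iso.t]

theorem inner_cR (g : Unit → Γ) (η : Hp (jj θ.p)) :
    ⟪cR θ g (cξ θ), η⟫_ℂ = (η : Ell2 Γ) (g ()) := by
  rw [Submodule.coe_inner, coe_cR, cξ, coe_prj, ← mul_apply_eq_comp,
    ← (commute_P θ (lam_mem_LA _)).eq, mul_apply_eq_comp, inner_P (star_jj_p θ), P_coe, lam_dt,
    mul_one, inner_dt]

theorem cpars (η : Hp (jj θ.p)) : HasSum (fun g => ‖⟪cR θ g (cξ θ), η⟫_ℂ‖ ^ 2) (‖η‖ ^ 2) := by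
  simp only [inner_cR]
  exact ((Equiv.funUnique Unit Γ).hasSum_iff (f := fun k => ‖(η : Ell2 Γ) k‖ ^ 2)).2
    (hasSum_normSq (η : Ell2 Γ))

theorem ccomm (γ : Γ) (g : Unit → Γ) : Commute (cπ θ γ) (cR θ g) :=
  commute_cmp (jj_p_mul θ) (commute_P_u θ γ) (commute_P θ (lam_mem_LA _))
    (LA_comm_RA (lam_mem_LA _) (jj_mem_RA (θ.u_mem γ))).symm

theorem coe_cπ_cξ (γ : Γ) : (cπ θ γ (cξ θ) : Ell2 Γ) = θ.u γ⁻¹ (dt 1) := by
  rw [coe_cπ, coe_cξ, jj_apply_hat (θ.u_mem γ) θ.p_mem, θ.star_u, ← mul_apply_eq_comp, θ.p_mul_u]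

theorem cerg : ErgData (Set.range (cR θ)) (cπ θ) (cL θ) (cξ θ) where
  comm := by rintro _ ⟨g, rfl⟩ γ; exact ccomm θ γ g
  L_mem γ T hT := by
    have h : ex (jj_p_mul θ) T ∈ RA Γ := fun k =>
      (commute_ex (jj_p_mul θ) (commute_P θ (lam_mem_LA k))
        (Commute.symm (hT _ ⟨fun _ => k, rfl⟩))).symm
    exact commute_of_ex (jj_p_mul θ) (commute_P θ (uq_mem θ γ)) (LA_comm_RA (uq_mem θ γ) h).symm
  L_Ω γ := by
    ext1
    rw [coe_cL, coe_cπ_cξ, coe_cξ, ← mul_apply_eq_comp, add_mul, sub_mul, one_mul, θ.p_mul_u,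
      sub_self, add_zero, ← θ.u_mul, mul_inv_cancel, θ.u_one]
  cyc := by
    rw [Submodule.dense_iff_topologicalClosure_eq_top, Submodule.topologicalClosure_eq_top_iff,
      eq_bot_iff]
    intro w hw
    refine Subtype.ext (l2_ext fun k => ?_)
    exact (inner_cR θ (fun _ => k) w).symm.trans
      (hw _ (Submodule.subset_span ⟨_, ⟨_, rfl⟩, rfl⟩))
  erg v hv := by
    have h : ∀ γ, (θ.u γ + (1 - θ.p)) (jj (θ.u γ) v) = v := fun γ => by
      rw [← coe_cπ, ← coe_cL, hv]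
    have c1 : ∀ {x : Ell2 Γ →L[ℂ] Ell2 Γ}, x ∈ LA Γ → ∀ η, jj x (θ.p η) = θ.p (jj x η) :=
      fun hx η => by
        rw [← mul_apply_eq_comp, ← LA_comm_RA θ.p_mem (jj_mem_RA hx), mul_apply_eq_comp]
    have e1 : ∀ γ, θ.p * (θ.u γ + (1 - θ.p)) = θ.u γ * θ.p := fun γ => by
      rw [mul_add, mul_sub, mul_one, θ.p_mul_p, sub_self, add_zero, θ.p_mul_u, θ.u_mul_p]
    have e2 : ∀ γ, (1 - θ.p) * (θ.u γ + (1 - θ.p)) = 1 - θ.p := fun γ => by
      simp only [mul_add, mul_sub, sub_mul, mul_one, one_mul, θ.p_mul_u, θ.p_mul_p]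
      abel
    have h2 : (1 - θ.p) (v : Ell2 Γ) = 0 := eq_zero_of_right_inv θ icc_Γ fun γ => by
      conv_rhs => rw [← h γ, ← mul_apply_eq_comp, e2]
      simp only [sub_apply, one_apply_eq_self, map_sub, c1 (θ.u_mem γ)]
    obtain ⟨c, hc⟩ := eq_smul_of_ad_inv θ icc_Γ (w := θ.p v)
      (by rw [← mul_apply_eq_comp, θ.p_mul_p]) (by rw [c1 θ.p_mem, P_coe]) fun γ => by
        conv_rhs => rw [← h γ, ← mul_apply_eq_comp, e1]
        rw [c1 (θ.u_mem γ), mul_apply_eq_comp]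
    refine ⟨c, Subtype.ext ?_⟩
    rw [sub_apply, one_apply_eq_self, sub_eq_zero] at h2
    rw [h2, hc, Submodule.coe_smul, coe_cξ]

/-- the averaged vector states -/
def st {ι : Type} [Fintype ι] (w : ι → ℝ) (g : ι → Γ) :
    (Hp (jj θ.p) →L[ℂ] Hp (jj θ.p)) →ₗ[ℂ] ℂ where
  toFun T := (θ.t : ℂ)⁻¹ *
    ∑ i, w i * ⟪cR θ (fun _ => g i) (cξ θ), T (cR θ (fun _ => g i) (cξ θ))⟫_ℂ
  map_add' S T := by simp only [add_apply, inner_add_right, mul_add, Finset.sum_add_distrib]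
  map_smul' c T := by
    simp only [smul_apply, inner_smul_right, RingHom.id_apply, smul_eq_mul, Finset.mul_sum,
      mul_left_comm c]

theorem st_apply {ι : Type} [Fintype ι] (w : ι → ℝ) (g : ι → Γ)
    (T : Hp (jj θ.p) →L[ℂ] Hp (jj θ.p)) : st θ w g T = (θ.t : ℂ)⁻¹ *
    ∑ i, w i * ⟪cR θ (fun _ => g i) (cξ θ), T (cR θ (fun _ => g i) (cξ θ))⟫_ℂ := rfl

theorem inner_ex (T : Hp (jj θ.p) →L[ℂ] Hp (jj θ.p)) (k : Γ) :
    ⟪cR θ (fun _ => k) (cξ θ), T (cR θ (fun _ => k) (cξ θ))⟫_ℂ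
      = ⟪lam Γ k (θ.p (dt 1)), ex (jj_p_mul θ) T (lam Γ k (θ.p (dt 1)))⟫_ℂ := by
  rw [Submodule.coe_inner, ← ex_coe (jj_p_mul θ) T, coe_cR, coe_cξ]

theorem ctr : ∃ ω : (Hp (jj θ.p) →L[ℂ] Hp (jj θ.p)) →ₗ[ℂ] ℂ, ω 1 = 1 ∧
    (∀ T, 0 ≤ T → 0 ≤ (ω T).re) ∧ ∀ T, (∀ γ, Commute T (cπ θ γ)) →
      ∀ g, ω (cR θ g * T * cR θ g⁻¹) = ω T := by
  choose ι hι w g hw0 hw1 hw using fun n : ℕ =>
    exists_cavg icc_Γ θ.p_mem (Nat.one_div_pos_of_nat (α := ℝ) (n := n))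
  have ht : (θ.t : ℂ) ≠ 0 := by exact_mod_cast θ.t_pos.ne'
  obtain ⟨ω, hω⟩ := exists_lim_linear (hyperfilter ℕ) (fun n => st θ (w n) (g n)) fun T =>
    ⟨‖(θ.t : ℂ)⁻¹‖ * (‖cξ θ‖ * (‖T‖ * ‖cξ θ‖)), fun n => by
      rw [st_apply, norm_mul]
      refine mul_le_mul_of_nonneg_left ((norm_sum_le _ _).trans ?_) (norm_nonneg _)
      calc _ ≤ ∑ i, w n i * (‖cξ θ‖ * (‖T‖ * ‖cξ θ‖)) := Finset.sum_le_sum fun i _ => by
            rw [norm_mul, Complex.norm_real, Real.norm_of_nonneg (hw0 n i)]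
            refine mul_le_mul_of_nonneg_left ((norm_inner_le_norm _ _).trans ?_) (hw0 n i)
            rw [URep.norm_map]
            exact mul_le_mul_of_nonneg_left ((T.le_opNorm _).trans_eq (by rw [URep.norm_map]))
              (norm_nonneg _)
        _ = _ := by rw [← Finset.sum_mul, hw1, one_mul]⟩
  refine ⟨ω, tendsto_nhds_unique (hω 1) (tendsto_const_nhds.congr fun n => ?_), fun T hT => ?_,
    fun T hT k => ?_⟩
  · simp only [st_apply, one_apply_eq_self, inner_self_eq_norm_sq_to_K, URep.norm_map]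
    have : ((‖cξ θ‖ : ℂ)) ^ 2 = θ.t := by exact_mod_cast norm_cξ θ
    rw [← Finset.sum_mul, ← Complex.ofReal_sum, hw1, Complex.ofReal_one, one_mul]
    exact ((congrArg _ this).trans (inv_mul_cancel₀ ht)).symm
  · refine ge_of_tendsto' ((Complex.continuous_re.tendsto _).comp (hω T)) fun n => ?_
    refine (Complex.le_def.1 (?_ : (0 : ℂ) ≤ st θ (w n) (g n) T)).1
    rw [st_apply, ← Complex.ofReal_inv]
    refine mul_nonneg (Complex.zero_le_real.2 (inv_nonneg.2 θ.t_pos.le))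
      (Finset.sum_nonneg fun i _ => mul_nonneg (Complex.zero_le_real.2 (hw0 n i)) ?_)
    exact ((nonneg_iff_isPositive T).1 hT).inner_nonneg_right _
  · have hT' : ∀ γ, Commute (ex (jj_p_mul θ) T) (jj (θ.u γ)) := fun γ =>
      commute_ex (jj_p_mul θ) (commute_P_u θ γ) (hT γ)
    have h0 : Tendsto (fun n => st θ (w n) (g n) (cR θ k * T * cR θ k⁻¹) - st θ (w n) (g n) T)
        (hyperfilter ℕ) (𝓝 0) := by
      refine squeeze_zero_norm (a := fun n : ℕ => ‖(θ.t : ℂ)⁻¹ * (θ.t : ℂ)⁻¹‖ *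
        (2 * (‖ex (jj_p_mul θ) T‖ * (1 / ((n : ℝ) + 1))))) (fun n => ?_) ?_
      · have := avg_inv θ icc_Γ hT' (hw0 n) (hw1 n) (g n) (θ.tau_p ▸ (hw n).le) (k ())
        refine le_trans (le_of_eq ?_) (mul_le_mul_of_nonneg_left this (norm_nonneg _))
        have e : ∀ a : Γ, cR θ k⁻¹ (cR θ (fun _ => a) (cξ θ))
            = cR θ (fun _ => (k ())⁻¹ * a) (cξ θ) := fun a => by rw [← URep.mul_apply]; rfl
        rw [← norm_mul, st_apply, st_apply]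
        simp only [mul_apply_eq_comp, URep.inner_right (cR θ) k, e, inner_ex]
        congr 1
        field_simp
      · simpa using (((tendsto_one_div_add_atTop_nhds_zero_nat.const_mul
          ‖ex (jj_p_mul θ) T‖).const_mul 2).const_mul ‖(θ.t : ℂ)⁻¹ * (θ.t : ℂ)⁻¹‖).mono_left
          Nat.hyperfilter_le_atTop
    exact sub_eq_zero.1 (tendsto_nhds_unique ((hω _).sub (hω T)) h0)

/-- the corner setting -/
def csetting : Setting Unit (Hp (jj θ.p)) where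
  π := cπ θ
  R := cR θ
  ξ := cξ θ
  comm := ccomm θ
  ξ_ne h := θ.p_hat_ne_zero (by rw [← coe_cξ, h]; rfl)
  pars := cpars θ
  orth i γ g hg hne := by
    obtain rfl : g = 1 := funext fun _ => hg
    have hγ : γ ≠ 1 := fun e => hne ⟨e, rfl⟩
    rw [map_one, one_apply_eq_self, Submodule.coe_inner, coe_cπ_cξ, coe_cξ, ← θ.u_one,
      θ.inner_u_hat icc_Γ, dt_ne (inv_ne_one.2 hγ).symm, mul_zero]
  erg := ⟨cL θ, cerg θ⟩
  tr _ := by
    obtain ⟨ω, h1, h2, h3⟩ := ctr θ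
    exact ⟨ω, h1, h2, fun T hT _ μ => h3 T hT _⟩

end Crest.Agent.N111.A

namespace Crest.Agent.N111

theorem redI : RedIStmt := by
  rintro p hp h1 h2 hne ⟨φ, hφ⟩
  let θ := Iso.ofCorner hp h1 h2 hφ
  refine ⟨_, _, _, inferInstance, A.csetting θ, ?_⟩
  by_contra h
  refine hne (θ.p_eq_one ?_)
  rw [← A.norm_cξ]
  exact one_le_pow₀ (not_lt.1 h)

end Crest.Agent.N111
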