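import Crest.Agent.N111.A.Model

/-!
# Row 111, module A: the reduction of part (ii).
-/

set_option autoImplicit false
set_option maxHeartbeats 400000

noncomputable section

namespace Crest.Agent.N111.A

open scoped InnerProductSpace ComplexConjugate ENNReal ComplexOrder
open ContinuousLinearMap Crest.OperatorAlgebra Filter Topology

variable {Λ : Type} [Group Λ]

theorem eq_of_norm_eq {H : Type*} [NormedAddCommGroup H] [InnerProductSpace ℂ H] [CompleteSpace H]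
    {S T : H →L[ℂ] H} (hS : 0 ≤ S) (hT : 0 ≤ T) (h : ∀ η, ‖S η‖ ^ 2 = ‖T η‖ ^ 2) : S = T := by
  have key : ∀ {S : H →L[ℂ] H}, 0 ≤ S → ∀ η, ⟪(S * S) η, η⟫_ℂ = ((‖S η‖ ^ 2 : ℝ) : ℂ) := by
    intro S hS η
    rw [mul_apply_eq_comp, ← adjoint_inner_right, ← star_eq_adjoint,
      (IsSelfAdjoint.of_nonneg hS).star_eq, inner_self_eq_norm_sq_to_K]; simp
  have e : S * S = T * T := by
    apply ContinuousLinearMap.coe_injective
    exact (ext_inner_map _ _).1 fun η => (key hS η).trans (by rw [h]; exact (key hT η).symm)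
  rw [← CFC.sqrt_mul_self S hS, e, CFC.sqrt_mul_self T hT]

theorem cut_nonneg {Y : Type*} (P : Y → Prop) : 0 ≤ cut P := by
  have := star_mul_self_nonneg (cut P)
  rwa [star_cut, cut_mul_self] at this

/-- the graph embedding `a ↦ (a, b a, c a)` -/
def gr (b c : Λ) (a : Λ) : K3 Λ := ![a, b * a, c * a]

theorem gr_inj (b c : Λ) : Function.Injective (gr b c) := fun _ _ h => congrFun h 0

/-- the isometry onto a graph -/
def I (b c : Λ) : Ell2 Λ →L[ℂ] Ell2 (K3 Λ) := push (gr b c) (gr_inj b c)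

@[simp] theorem I_dt (b c a : Λ) : I b c (dt a) = dt (gr b c a) := push_dt _ _ _

/-- the slices -/
def slice (b c : Λ) (T : Ell2 (K3 Λ) →L[ℂ] Ell2 (K3 Λ)) : Ell2 Λ →L[ℂ] Ell2 Λ :=
  adjoint (I b c) ∘L T ∘L I b c

theorem inner_slice (b c : Λ) (T : Ell2 (K3 Λ) →L[ℂ] Ell2 (K3 Λ)) (ζ ζ' : Ell2 Λ) :
    ⟪ζ, slice b c T ζ'⟫_ℂ = ⟪I b c ζ, T (I b c ζ')⟫_ℂ := by
  rw [slice, comp_apply, comp_apply, adjoint_inner_right]

theorem slice_nonneg (b c : Λ) {T : Ell2 (K3 Λ) →L[ℂ] Ell2 (K3 Λ)} (hT : 0 ≤ T) :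
    0 ≤ slice b c T :=
  (nonneg_iff_isPositive _).2 (((nonneg_iff_isPositive _).1 hT).adjoint_conj (I b c))

theorem op_ext {H : Type*} [NormedAddCommGroup H] [InnerProductSpace ℂ H] {S T : H →L[ℂ] H}
    (h : ∀ ζ ζ', ⟪ζ, S ζ'⟫_ℂ = ⟪ζ, T ζ'⟫_ℂ) : S = T :=
  ContinuousLinearMap.ext fun ζ' => ext_inner_left ℂ fun ζ => h ζ ζ'

theorem ext_dt' {X E : Type*} [NormedAddCommGroup E] [NormedSpace ℂ E] {S T : Ell2 X →L[ℂ] E}
    (h : ∀ x, S (dt x) = T (dt x)) (ξ : Ell2 X) : S ξ = T ξ := by rw [ext_dt h]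

theorem lam_I (b c r : Λ) (ζ : Ell2 Λ) : lam _ (leg 2 r) (I b c ζ) = I b (r * c) ζ :=
  ext_dt' (S := lam _ (leg 2 r) ∘L I b c) (fun a => by
    simp only [comp_apply, I_dt, lam_dt]
    congr 1; ext i; fin_cases i <;> simp [gr, leg_apply, mul_assoc]) ζ

theorem I_lam (b c r : Λ) (ζ : Ell2 Λ) :
    I b c (lam Λ r ζ) = lam _ (leg 0 r) (I (b * r) (c * r) ζ) :=
  ext_dt' (S := I b c ∘L lam Λ r) (T := lam _ (leg 0 r) ∘L I (b * r) (c * r)) (fun a => by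
    simp only [comp_apply, I_dt, lam_dt]
    congr 1; ext i; fin_cases i <;> simp [gr, leg_apply, mul_assoc]) ζ

theorem fl_I (b c : Λ) (ζ : Ell2 Λ) : fl Λ (I b c ζ) = I c b ζ :=
  ext_dt' (S := fl Λ ∘L I b c) (fun a => by
    simp only [comp_apply, I_dt, fl_dt]
    congr 1; ext i; fin_cases i <;> simp [gr, sw, Equiv.swap_apply_def]) ζ

theorem lam_push_dia (b c a : Λ) :
    lam _ (gr b c a) ∘L push dia dia_inj = I b c ∘L lam Λ a := ext_dt fun s => by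
  simp only [comp_apply, I_dt, lam_dt, push_dt]
  congr 1; ext i; fin_cases i <;> simp [gr, mul_assoc]

theorem jj_emb_I (b c : Λ) {x : Ell2 Λ →L[ℂ] Ell2 Λ} (hx : x ∈ LA Λ) (ζ : Ell2 Λ) :
    jj (emb dia dia_inj x) (I b c ζ) = I b c (jj x ζ) := by
  have : jj (emb dia dia_inj x) ∘L I b c = I b c ∘L jj x := ext_dt fun a => by
    rw [comp_apply, comp_apply, I_dt, RA_dt (jj_mem_RA (emb_mem _ _ _)), RA_dt (jj_mem_RA hx),
      jj_apply, jj_apply, Jc_dt, Jc_dt, inv_one, inv_one, emb_hat _ _ hx, Jc_push, ← comp_apply,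
      lam_push_dia, comp_apply]
  rw [← comp_apply, this, comp_apply]

/-- the projection onto `{y i = b * y 0}` -/
def F (i : Fin 3) (b : Λ) : Ell2 (K3 Λ) →L[ℂ] Ell2 (K3 Λ) := cut fun y => y i = b * y 0

theorem F1_I (b c : Λ) (ζ : Ell2 Λ) : F 1 b (I b c ζ) = I b c ζ :=
  ext_dt' (S := F 1 b ∘L I b c) (fun a => by
    simp only [comp_apply, I_dt]; exact cut_dt_pos (by simp [gr])) ζ

theorem F2_I (b c : Λ) (ζ : Ell2 Λ) : F 2 c (I b c ζ) = I b c ζ :=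
  ext_dt' (S := F 2 c ∘L I b c) (fun a => by
    simp only [comp_apply, I_dt]; exact cut_dt_pos (by simp [gr])) ζ

theorem I_adjoint (b c : Λ) (η : Ell2 (K3 Λ)) : I b c (adjoint (I b c) η) = F 1 b (F 2 c η) := by
  refine ext_dt' (S := I b c ∘L adjoint (I b c)) (T := F 1 b ∘L F 2 c) (fun y => ?_) η
  simp only [comp_apply, I, adjoint_push]
  by_cases h : y 1 = b * y 0 ∧ y 2 = c * y 0
  · have e : y = gr b c (y 0) := by ext i; fin_cases i <;> simp [gr, h.1, h.2]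
    rw [F, F, cut_dt_pos (P := fun y : K3 Λ => y 2 = c * y 0) h.2,
      cut_dt_pos (P := fun y : K3 Λ => y 1 = b * y 0) h.1, e, pull_dt, push_dt]
  · rw [pull_dt_of_not _ _ (by rintro a rfl; exact h ⟨by simp [gr], by simp [gr]⟩), map_zero]
    by_cases h2 : y 2 = c * y 0
    · rw [F, F, cut_dt_pos (P := fun y : K3 Λ => y 2 = c * y 0) h2,
        cut_dt_neg (P := fun y : K3 Λ => y 1 = b * y 0) fun h1 => h ⟨h1, h2⟩]
    · rw [F, F, cut_dt_neg (P := fun y : K3 Λ => y 2 = c * y 0) h2, map_zero]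

theorem fl_F (b : Λ) : fl Λ * F 2 b = F 1 b * fl Λ := ext_dt fun y => by
  by_cases h : y 2 = b * y 0
  · have h' : sw y 1 = b * sw y 0 := by simpa [sw, Equiv.swap_apply_def] using h
    simp [F, cut_dt_pos (P := fun y : K3 Λ => y 2 = b * y 0) h,
      cut_dt_pos (P := fun y : K3 Λ => y 1 = b * y 0) h']
  · have h' : ¬ sw y 1 = b * sw y 0 := by simpa [sw, Equiv.swap_apply_def] using h
    simp [F, cut_dt_neg (P := fun y : K3 Λ => y 2 = b * y 0) h,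
      cut_dt_neg (P := fun y : K3 Λ => y 1 = b * y 0) h']

theorem inner_conj_eq {H K : Type*} [NormedAddCommGroup H] [InnerProductSpace ℂ H] [Group K]
    (σ : URep K H) (k : K) {T : H →L[ℂ] H} (h : Commute (σ k) T) (ζ ζ' : H) :
    ⟪σ k ζ, T (σ k ζ')⟫_ℂ = ⟪ζ, T ζ'⟫_ℂ := by
  rw [← mul_apply_eq_comp, ← h.eq, mul_apply_eq_comp, σ.inner_map_map]

/-- the operators of the end game -/
structure Good (T : Ell2 (K3 Λ) →L[ℂ] Ell2 (K3 Λ)) : Prop where
  c0 : ∀ r, Commute (lam _ (leg 0 r)) T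
  c2 : ∀ r, Commute (lam _ (leg 2 r)) T
  cF : ∀ c, Commute (F 2 c) T

variable {T T' : Ell2 (K3 Λ) →L[ℂ] Ell2 (K3 Λ)}

theorem Good.slice_eq (h : Good T) (b c : Λ) : slice b c T = slice b 1 T :=
  op_ext fun ζ ζ' => by
    rw [inner_slice, inner_slice, ← inner_conj_eq _ _ (h.c2 c) (I b 1 ζ), lam_I, lam_I, mul_one]

theorem Good.conj_lam (h : Good T) (b s : Λ) :
    lam Λ s⁻¹ * slice b 1 T * lam Λ s = slice (b * s) 1 T :=
  op_ext fun ζ ζ' => by
    rw [mul_apply_eq_comp, mul_apply_eq_comp, ← URep.inner_left, inner_slice, I_lam, I_lam,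
      inner_conj_eq _ _ (h.c0 s), ← inner_slice, h.slice_eq]

theorem Good.diag (h : Good T) (y : K3 Λ) :
    ⟪dt y, T (dt y)⟫_ℂ = ⟪dt (leg 1 (y 1)), T (dt (leg 1 (y 1)))⟫_ℂ := by
  have e : y = leg 0 (y 0) * (leg 2 (y 2) * leg 1 (y 1)) := by
    ext i; fin_cases i <;> simp [leg_apply]
  conv_lhs => rw [e, ← lam_dt, inner_conj_eq _ _ (h.c0 _), ← lam_dt, inner_conj_eq _ _ (h.c2 _)]

theorem slice_fl (b c : Λ) (T : Ell2 (K3 Λ) →L[ℂ] Ell2 (K3 Λ)) :
    slice b c (fl Λ * T * fl Λ) = slice c b T :=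
  op_ext fun ζ ζ' => by
    rw [inner_slice, inner_slice, mul_apply_eq_comp, mul_apply_eq_comp, fl_I,
      ← adjoint_inner_left, ← star_eq_adjoint, star_fl, fl_I]

theorem slice_commute {S : Ell2 (K3 Λ) →L[ℂ] Ell2 (K3 Λ)} (b c : Λ) (h1 : Commute (F 2 c) T)
    (h2 : Commute (F 1 b) S) (h : Commute T S) : Commute (slice b c T) (slice b c S) := by
  have a1 : ∀ η, F 2 c (T η) = T (F 2 c η) := fun η => congrArg (fun A => A η) h1.eq
  have a2 : ∀ η, F 1 b (S η) = S (F 1 b η) := fun η => congrArg (fun A => A η) h2.eq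
  have a3 : ∀ η, F 1 b (F 2 c η) = F 2 c (F 1 b η) := fun η =>
    congrArg (fun A : Ell2 (K3 Λ) →L[ℂ] Ell2 (K3 Λ) => A η) (commute_cut_cut _ _).eq
  have a4 : ∀ η, T (S η) = S (T η) := fun η => congrArg (fun A => A η) h.eq
  refine op_ext fun ζ ζ' => ?_
  rw [mul_apply_eq_comp, mul_apply_eq_comp, inner_slice, inner_slice, slice, slice]
  simp only [comp_apply, I_adjoint]
  rw [a1, F2_I, ← a2, a3, a2, F1_I, ← a1, F, F, ← inner_cut_left, ← inner_cut_left, ← F, ← F,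
    F1_I, F2_I, a4]

theorem Good.commute (h : Good T) (h' : Good T') (hc : Commute T (fl Λ * T' * fl Λ)) (b c : Λ) :
    Commute (slice b 1 T) (slice c 1 T') := by
  rw [← h.slice_eq b c, ← h'.slice_eq c b, ← slice_fl b c T']
  refine slice_commute b c (h.cF c) ?_ hc
  have e : F 1 b * fl Λ = fl Λ * F 2 b := (fl_F b).symm
  have e' : fl Λ * F 1 b = F 2 b * fl Λ := by
    simpa only [star_mul, star_fl, F, star_cut] using congrArg star e
  rw [Commute, SemiconjBy, ← mul_assoc, ← mul_assoc, e, mul_assoc (fl Λ), (h'.cF b).eq,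
    mul_assoc _ (fl Λ), e']
  simp only [mul_assoc]

variable {v : URep Γ (Ell2 Λ)} (hv : IsGen v) (hr : IsReg v (dt 1))

include hv hr in
theorem isReg_jj : IsReg v.jj (dt 1) := by
  have e : ∀ γ, v.jj γ (dt 1) = v γ⁻¹ (dt 1) := fun γ => by
    rw [URep.jj_apply, ← Rm_star_eq, Rm_hat_LA (star_mem (hv.mem γ)), URep.star_apply]
  refine ⟨by simpa only [e, Function.comp_def] using hr.on.comp _ inv_injective,
    fun w hw => hr.tot w fun γ => ?_⟩
  rw [← hw γ⁻¹, e, inv_inv]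

theorem eq_E (hΛ : IsICC Λ) {j₀ : Ell2 (K3 Λ) →L[ℂ] Ell2 (K3 Λ)}
    (hj : (setting hv hr hΛ).IsJ 1 j₀) : j₀ = E 1 := by
  refine eq_of_norm_eq hj.1 (cut_nonneg _) fun η => (hj.2 η).unique ?_
  have h := (isReg_R hv hr).hasSum_normSq (E 1 η)
  simp only [E, ← inner_cut_left] at h
  rw [← hasSum_subtype_iff_of_support_subset (s := {g | g 1 = 1})] at h
  · refine h.congr_fun fun g => ?_
    rw [Function.comp_apply, ← E, E_R_pos hv g.2]; rfl
  · intro g hg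
    by_contra hn
    exact hg (by simp only; rw [← E, E_R_neg hv hr hn]; simp)

theorem end2 (hΛ : IsICC Λ) {j₀ : Ell2 (K3 Λ) →L[ℂ] Ell2 (K3 Λ)}
    {𝒯 : Set (Ell2 (K3 Λ) →L[ℂ] Ell2 (K3 Λ))} (hj : (setting hv hr hΛ).IsJ 1 j₀)
    (h : (setting hv hr hΛ).End2 (fl Λ) j₀ 𝒯) : Nonempty (Λ ≃* Γ) := by
  obtain rfl := eq_E hv hr hΛ hj
  have hleg : ∀ {i : Fin 3}, i ≠ 1 → ∀ r, ∀ T ∈ 𝒯, Commute (lam _ (leg i r)) T :=
    fun hi r T hT => h.gen T hT _ (fun γ => LA_comm_RA (lam_mem_LA _) (jj_mem_RA (D_mem hv γ)))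
      (fun μ => (R_single hv 1 μ).symm ▸ commute_Al hv (commute_lam_leg (leg_ne hi.symm r)) μ)
      (commute_E_lam (leg_ne hi.symm r)).symm
  have hg : ∀ T ∈ 𝒯, Good T := fun T hT =>
    ⟨fun r => hleg (by decide) r T hT, fun r => hleg (by decide) r T hT, fun c =>
      h.gen T hT _ (commute_π hv fun s => commute_cut (rho_dt _) fun y => by
          simp [← mul_assoc])
        (fun μ => (R_single hv 1 μ).symm ▸ commute_Al hv
          (fun s => commute_cut (lam_dt _) fun y => by simp [leg_apply]) μ)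
        (commute_cut_cut _ _)⟩
  obtain ⟨T, hT, hT0⟩ := h.ne
  obtain ⟨y, hy⟩ : ∃ y, ⟪dt y, T (dt y)⟫_ℂ ≠ 0 := by
    by_contra hc
    push Not at hc
    exact hT0 (eq_zero_of_diag (h.pos T hT) hc)
  obtain ⟨B, hB⟩ := h.tr T hT
  have hd : ∀ b k, ⟪dt k, slice b 1 T (dt k)⟫_ℂ
      = ⟪dt (leg 1 (b * k)), T (dt (leg 1 (b * k)))⟫_ℂ := fun b k => by
    rw [inner_slice, I_dt, (hg T hT).diag]; simp [gr]
  refine iso_of_family isReg_lam (isReg_jj hv hr) (fun γ => jj_mem_RA (hv.mem γ)) hΛ icc_Γ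
    (𝒜 := {t | ∃ T ∈ 𝒯, ∃ b, t = slice b 1 T}) ?_ ?_ ?_ ?_ ⟨T, hT, y 1, rfl⟩ (fun h0 => hy ?_)
    (B := B) fun G => ?_
  · rintro _ ⟨T, hT, b, rfl⟩
    exact slice_nonneg _ _ (h.pos T hT)
  · rintro _ ⟨T, hT, b, rfl⟩ _ ⟨T', hT', c, rfl⟩
    exact (hg T hT).commute (hg T' hT') (h.cross T hT T' hT') b c
  · rintro _ ⟨T, hT, b, rfl⟩ s
    exact ⟨T, hT, b * s, (hg T hT).conj_lam b s⟩
  · rintro _ ⟨T, hT, b, rfl⟩ γ
    refine ⟨_, h.conj T hT γ⁻¹, b, op_ext fun ζ ζ' => ?_⟩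
    have e : ∀ ζ, (setting hv hr hΛ).π γ (I b 1 ζ) = I b 1 (v.jj γ ζ) := jj_emb_I b 1 (hv.mem γ)
    rw [mul_apply_eq_comp, mul_apply_eq_comp, ← URep.inner_left, inner_slice, inner_slice,
      mul_apply_eq_comp, mul_apply_eq_comp, ← URep.inner_left, inv_inv, e, e]
  · have := hd (y 1) 1
    rw [h0, mul_one] at this
    rw [(hg T hT).diag, ← this]; simp
  · set P := push (leg (Λ := Λ) 1) (leg_inj 1)
    have hP : ∀ ζ, ⟪ζ, (adjoint P ∘L T ∘L P) ζ⟫_ℂ = ⟪P ζ, T (P ζ)⟫_ℂ := fun ζ => by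
      rw [comp_apply, comp_apply, adjoint_inner_right]
    have := trace_le_of_basis hr.hasSum_normSq
      (orthonormal_dt.comp _ (mul_right_injective (y 1))) (t := adjoint P ∘L T ∘L P)
      ((nonneg_iff_isPositive _).2 (((nonneg_iff_isPositive _).1 (h.pos T hT)).adjoint_conj P))
      (B := B) (fun G => ?_) G
    · simpa only [hP, Function.comp_apply, P, push_dt, lam_dt, mul_one, hd] using this
    · have e : ∀ μ, (setting hv hr hΛ).R (Pi.mulSingle 1 μ) (dt 1) = P (v μ (dt 1)) := fun μ =>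
        (congrArg (fun A : Ell2 (K3 Λ) →L[ℂ] Ell2 (K3 Λ) => A (dt 1)) (R_single hv 1 μ)).trans
          (emb_hat _ _ (hv.mem μ))
      simpa only [hP, e, norm_dt, one_pow, mul_one] using hB (dt 1) G

end Crest.Agent.N111.A

namespace Crest.Agent.N111

theorem redII : RedIIStmt := by
  rintro Λ _ _ _ hΛ ⟨φ, hφ⟩
  obtain ⟨v, hv, hr⟩ := (Iso.ofIso hφ).exists_gen (Iso.ofIso_p hφ) hΛ
  exact ⟨_, _, _, inferInstance, A.setting hv hr hΛ, A.fl Λ, A.setting_flip hv hr hΛ,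
    fun _ _ hj h => A.end2 hv hr hΛ hj h⟩

end Crest.Agent.N111
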